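import Vale.Agent.P224.PO.R11s.Val
import Vale.Agent.P224.PO.LawO
import Vale.Agent.P224.PO.LawNumO
import Vale.Agent.P224.PO.Cst

/-!
The static certificate with slack in dimension 11: the pointwise inequality and the law with
its values kept.
-/

namespace Vale.Agent.P224.PO.R11s

open Vale.Agent.P224 Vale.Agent.P224.UE Vale.Agent.P224.POS Vale.Agent.P224.PO
open scoped RealInnerProductSpace

/-- **The pointwise inequality** with the resources and the slack. -/
theorem hpos_s {E : Type*} [NormedAddCommGroup E] [InnerProductSpace ℝ E] (e x N y w : E)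
    (he : ‖e‖ ^ 2 ≤ 25 / 36) (hx : ‖x‖ = 1) (hN : ‖N‖ = 1) (hy : ‖y‖ = 1) (hw : ‖w‖ = 1)
    (hxN : ⟪x, N⟫ = 0) (hyw : ⟪y, w⟫ = 0) (hs : ⟪x, y⟫ < 1) :
    0 ≤ Vale.Agent.P224.UE.W9 1 (8856578263 / 17179869184) (-(27187645965 / 8589934592)) (18701401045 / 8589934592) (-(32662317069 / 34359738368)) (4298983569 / 17179869184) (0) (8093897011 / 17179869184) (0)
        (dv x N y w e)
      + hsum 11 (rlH 923589767331840 rows) (dv x N y w e)
      - ((2962915725 / 34359738368) * RF (-(118 / 21)) 74 (241 / 110) (dv x N y w e)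
        + (0) * dv x N y w e 0 ^ 3
        + (4044203363 / 68719476736) * ((dv x N y w e 1 - dv x N y w e 2) / 2) ^ 2) := by
  have h := hposS e x N y w he hx hN hy hw hxN hyw hs
  unfold XS at h
  linarith

/-- **The law with its values kept.** -/
theorem hlaw_s {Θ u r : ℝ} (h1 : 6 / 5 ≤ Θ) (h2 : Θ ≤ 14467683 / 10000000) (hu : 0 ≤ u)
    (hT : Θ ^ 2 * u ≤ 1) (hr1 : u ^ 2 ≤ r) (hr2 : r ≤ u) :
    Θ * (1 + ((8856578263 / 17179869184) + (-(27187645965 / 8589934592)) + (18701401045 / 8589934592)) * u + ((-(32662317069 / 34359738368)) + (8093897011 / 17179869184)) * r + ((4298983569 / 17179869184) + (0)) * u ^ 2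
      + (0) * ((u - r) / ((11 : ℕ) + 1))) + KH 11 * hval 11 (rlH 923589767331840 rows) u r
      ≤ Θ * (5543 / 100000000 - 12021 / 100000 * u + 3113 / 12500 * u ^ 2) := by
  have hb := div_pi_bounds (N := 524288 / 63) (by norm_num)
  have hK : KH 11 = (524288 / 63) / Real.pi := by
    have h0 := KHn_11
    have := Real.pi_pos
    rw [h0]
    try field_simp
  rw [← hK] at hb
  rw [hval_rows]
  have h := law_two (Tm := 14467683 / 10000000) (K := KH 11) (Q0 := -(14660046484375 / 26842057662267392)) (Q1 := (968123828125 / 5032885811675136)) (Q2 := (10518133984375 / 40263086493401088))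
    (P1 := (-(2363562305621625 / 6710514415566848))) (P2 := (-(6435360565234375 / 13421028831133696))) (P3 := (8011307584625 / 6710514415566848))
    hb.1 hb.2 (by norm_num) (by norm_num) (by norm_num) (by norm_num)
    (by norm_num) (by norm_num) (by norm_num)
    (fun T hT1 hT2 => quintic_neg (by norm_num) (by norm_num) (by norm_num) (by norm_num)
      (by norm_num) (by norm_num) (by norm_num) (le_of_eq rfl) (le_of_eq rfl) (le_of_eq rfl)
      (le_of_eq rfl) (le_of_eq rfl) (le_of_eq rfl) hT1 hT2)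
    (fun T hT1 hT2 => quintic_neg (by norm_num) (by norm_num) (by norm_num) (by norm_num)
      (by norm_num) (by norm_num) (by norm_num) (le_of_eq rfl) (le_of_eq rfl) (le_of_eq rfl)
      (le_of_eq rfl) (le_of_eq rfl) (le_of_eq rfl) hT1 hT2)
    (fun T hT1 hT2 => quintic_neg (by norm_num) (by norm_num) (by norm_num) (by norm_num)
      (by norm_num) (by norm_num) (by norm_num) (le_of_eq rfl) (le_of_eq rfl) (le_of_eq rfl)
      (le_of_eq rfl) (le_of_eq rfl) (le_of_eq rfl) hT1 hT2)
    (fun T hT1 hT2 => quintic_neg (by norm_num) (by norm_num) (by norm_num) (by norm_num)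
      (by norm_num) (by norm_num) (by norm_num) (le_of_eq rfl) (le_of_eq rfl) (le_of_eq rfl)
      (le_of_eq rfl) (le_of_eq rfl) (le_of_eq rfl) hT1 hT2)
    h1 h2 hu hT hr1 hr2
  refine le_of_sub_nonpos ?_
  refine (le_of_eq ?_).trans (mul_nonpos_of_nonneg_of_nonpos
    (by norm_num : (0 : ℝ) ≤ 1 - 5543 / 100000000) h.le)
  ring

/-- **The law for large volumes**, from a value of `u` on. -/
theorem hlaw_g {Θ u r u0 : ℝ} (h1 : 904 / 625 ≤ Θ) (h2 : Θ ≤ 14467683 / 10000000) (h0 : 0 ≤ u0)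
    (h0' : u0 ≤ 1 / 1000) (hu : u0 ≤ u)
    (hT : Θ ^ 2 * u ≤ 1) (hr1 : u ^ 2 ≤ r) (hr2 : r ≤ u) :
    Θ * (1 + ((8856578263 / 17179869184) + (-(27187645965 / 8589934592)) + (18701401045 / 8589934592)) * u + ((-(32662317069 / 34359738368)) + (8093897011 / 17179869184)) * r + ((4298983569 / 17179869184) + (0)) * u ^ 2
      + (0) * ((u - r) / ((11 : ℕ) + 1))) + KH 11 * hval 11 (rlH 923589767331840 rows) u r
      ≤ Θ * (5543 / 100000000 - 12021 / 100000 * u0 + 3113 / 12500 * u0 ^ 2) := by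
  have hu' : 0 ≤ u := h0.trans hu
  refine (hlaw_s (le_trans (by norm_num) h1) h2 hu' hT hr1 hr2).trans
    (mul_le_mul_of_nonneg_left ?_ (le_trans (by norm_num) h1))
  have h3 : (904 / 625 : ℝ) ^ 2 * u ≤ Θ ^ 2 * u :=
    mul_le_mul_of_nonneg_right (pow_le_pow_left₀ (by norm_num) h1 2) hu'
  have hum : u ≤ 239 / 500 := by
    norm_num at h3 ⊢
    linarith
  have h4 : (0 : ℝ) ≤ 12021 / 100000 - 3113 / 12500 * (u + u0) := by
    norm_num at hum h0' ⊢
    linarith
  have h5 := mul_nonneg (sub_nonneg.2 hu) h4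
  nlinarith [h5]

end Vale.Agent.P224.PO.R11s
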