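import Vale.Agent.P224.PO.IdX
import Vale.Agent.P224.PO.R11s.Rows
import Vale.Agent.P224.PO.R11s.El
import Vale.Agent.P224.PO.R11s.DF0
import Vale.Agent.P224.PO.R11s.DF1

/-!
The identity of the certificate in dimension 11 and the positivity of its left side.
-/

namespace Vale.Agent.P224.PO.R11s

open Vale.Agent.P224.UE Vale.Agent.P224.POS Vale.Agent.P224.PO
open scoped RealInnerProductSpace

noncomputable section

/-- the blocks with the multiplier number 0 -/
def B1 : List BlkX := [⟨els0, 4611686018427387904, N0⟩,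
  ⟨els1, 576460752303423488, N1⟩]

/-- the blocks with the multiplier number 1 -/
def Br : List BlkX := [⟨els2, 2305843009213693952, N2⟩,
  ⟨els3, 2305843009213693952, N3⟩]

/-- the blocks with the multiplier number 2 -/
def S1 : List BlkX := [⟨els4, 549755813888, N4⟩,
  ⟨els5, 8796093022208, N5⟩]

/-- the blocks with the multiplier number 3 -/
def Sr : List BlkX := [⟨els6, 274877906944, N6⟩,
  ⟨els7, 70368744177664, N7⟩]

/-- the integers replacing the first four variables (not powers of two: the kernel hashes a numeral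
by its last 64 bits) -/
def Ms : List Nat := [
  Nat.add (Nat.pow 2 89) 1090297408444377839,
  Nat.add (Nat.pow 2 1648) 672893673074899541,
  Nat.add (Nat.pow 2 11875) 494586791774247929,
  Nat.add (Nat.pow 2 83464) 946030352018653745]

set_option maxRecDepth 100000 in
/-- **The identity**, checked by the kernel. -/
theorem idM : chkX Ms (PE.sb sbH P) 8 tabH (mulX B1 Br S1 Sr) = true := by
  decide +kernel

lemma hB1 : GoodX B1 :=
  (goodX_cons psd0 (goodX_cons psd1 goodX_nil))

lemma hBr : GoodX Br :=
  (goodX_cons psd2 (goodX_cons psd3 goodX_nil))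

lemma hS1 : GoodX S1 :=
  (goodX_cons psd4 (goodX_cons psd5 goodX_nil))

lemma hSr : GoodX Sr :=
  (goodX_cons psd6 (goodX_cons psd7 goodX_nil))

/-- **Positivity** of the left side on pair data with a vector of length at most `5 / 6`. -/
theorem pos {E : Type*} [NormedAddCommGroup E] [InnerProductSpace ℝ E] {e x N y w : E}
    (he : ‖e‖ ^ 2 ≤ 25 / 36) (hx : ‖x‖ = 1) (hN : ‖N‖ = 1) (hy : ‖y‖ = 1) (hw : ‖w‖ = 1)
    (hxN : ⟪x, N⟫ = 0) (hyw : ⟪y, w⟫ = 0) (hs : ⟪x, y⟫ < 1) :
    0 ≤ PE.ev (vh (dv x N y w e)) P :=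
  nonneg_of_chkX 8 (by norm_num) idM rfl hB1 hBr hS1 hSr he hx hN hy hw hxN hyw hs

/-- **The pointwise inequality of the certificate.** -/
theorem hpos {E : Type*} [NormedAddCommGroup E] [InnerProductSpace ℝ E] (e x N y w : E)
    (he : ‖e‖ ^ 2 ≤ 25 / 36) (hx : ‖x‖ = 1) (hN : ‖N‖ = 1) (hy : ‖y‖ = 1) (hw : ‖w‖ = 1)
    (hxN : ⟪x, N⟫ = 0) (hyw : ⟪y, w⟫ = 0) (hs : ⟪x, y⟫ < 1) :
    0 ≤ Vale.Agent.P224.UE.W9 (1371108558435840 / 923589767331840) (476129647418880 / 923589767331840) (-2923215694156800 / 923589767331840) (2010774640358400 / 923589767331840) (-877963082814720 / 923589767331840) (231113356669440 / 923589767331840) (0 / 923589767331840) (435127903311360 / 923589767331840) (0 / 923589767331840)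
        (dv x N y w e)
      + hsum 11 (rlH 923589767331840 rows) (dv x N y w e) + XF (-5893594926912000 / 923589767331840) (79643174688000 / 923589767331840) (-174490955452800 / 923589767331840) (dv x N y w e)
      + (0 / 923589767331840) * (dv x N y w e) 0 ^ 3 + XS (0 / 923589767331840) (0 / 923589767331840) (0 / 923589767331840) (-13588523299680 / 923589767331840) (dv x N y w e) :=
  pos_of hs (pos he hx hN hy hw hxN hyw hs)

end

end Vale.Agent.P224.PO.R11s
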