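import Vale.Agent.P224.PO.R11s.Id
import Vale.Agent.P224.PO.LvO
import Vale.Agent.P224.PO.LawK

/-!
The values of the rows of the certificate and its pointwise inequality with resources and slack.
-/

namespace Vale.Agent.P224.PO.R11s

open Vale.Agent.P224 Vale.Agent.P224.UE Vale.Agent.P224.POS Vale.Agent.P224.PO
open scoped RealInnerProductSpace

/-- the value of the rows -/
def qv : PE := PE.add (PE.add (PE.c (-6052793080320)) (PE.mul (PE.c 2131817963520) (PE.v 0)))
  (PE.mul (PE.c 2895129000960) (PE.v 1))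

set_option maxRecDepth 100000 in
lemma qv_chk : chk [] (PE.sub (lvO 11 rows) qv) = true := by decide +kernel

lemma hval_rows (u r : ℝ) : hval 11 (rlH 923589767331840 rows) u r
    = -(37529719 / 68719476736) + (2478397 / 12884901888) * u + (26926423 / 103079215104) * r := by
  rw [hval_eq (by norm_num) qv_chk]
  unfold qv
  simp only [PE.ev_add, PE.ev_mul, PE.ev_c, PE.ev_v]
  have e0 : ([u, r] : List ℝ).getD 0 0 = u := rfl
  have e1 : ([u, r] : List ℝ).getD 1 0 = r := rfl
  rw [e0, e1]
  push_cast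
  ring

/-- **The pointwise inequality** with the resources and the slack. -/
theorem hposS {E : Type*} [NormedAddCommGroup E] [InnerProductSpace ℝ E] (e x N y w : E)
    (he : ‖e‖ ^ 2 ≤ 25 / 36) (hx : ‖x‖ = 1) (hN : ‖N‖ = 1) (hy : ‖y‖ = 1) (hw : ‖w‖ = 1)
    (hxN : ⟪x, N⟫ = 0) (hyw : ⟪y, w⟫ = 0) (hs : ⟪x, y⟫ < 1) :
    0 ≤ Vale.Agent.P224.UE.W9 1 (8856578263 / 17179869184) (-(27187645965 / 8589934592)) (18701401045 / 8589934592) (-(32662317069 / 34359738368)) (4298983569 / 17179869184) (0) (8093897011 / 17179869184) (0)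
        (dv x N y w e)
      + hsum 11 (rlH 923589767331840 rows) (dv x N y w e)
      - (2962915725 / 34359738368) * RF (-(118 / 21)) 74 (241 / 110) (dv x N y w e)
      - (0) * (dv x N y w e) 0 ^ 3
      + XS (0) (0) (0) (-(4044203363 / 274877906944)) (dv x N y w e) := by
  have h := hpos e x N y w he hx hN hy hw hxN hyw hs
  unfold Vale.Agent.P224.UE.W9 XF XS at h
  unfold Vale.Agent.P224.UE.W9 RF XS
  linarith

end Vale.Agent.P224.PO.R11s
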